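import Crest.Agent.N337.B.Two

/-!
# Row 337, move (b): hypotheses of the excision (junk free)
-/

set_option autoImplicit false
set_option linter.unusedSectionVars false

namespace Crest.Agent.N337.Ex

open Finset Equiv Crest.Agent.N337.Rep Crest.Agent.N337.LY0 Crest.Agent.N337.A
  Crest.Agent.N337.Gas Crest.Agent.N337.Pc

variable {Λ : Type} [Fintype Λ] [DecidableEq Λ] {T : ℕ} [NeZero T] (ex ey : Fin T → Λ)

/-- the time-`0` points over a set of slots. -/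
def top (U : Finset Λ) : Finset (Fin T × Λ) := univ.filter fun v => v.1 = 0 ∧ v.2 ∈ U

/-- the numerical data of the box move and of the clustering lemma (as in `A.boxS`). -/
structure Tow (d : Λ → Λ → ℕ) (M : Mdl T Λ) (S : Finset Λ) (Tf δ : ℝ) (K : ℕ → ℝ) (v g : ℕ → ℕ)
    (N m f D : ℕ) : Prop where
  met : Met ex ey d
  sup : ∀ u, M.b u ≠ 0 → u.2 ∈ S
  card : S.card ≤ N
  one : 1 ≤ N
  tow : ∀ i < 4, v (i + 1) = (g i + 1) * (v i + 1) ∧ Rate ex ey d M (v i + 2) (K i) ∧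
    N * Real.exp (40 * K i - g i) ≤ δ
  num : Num N Tf (K 3) δ (v 3) m f D

/-- long loops: they meet the junk `Zs` and have the top colour or leave its `R`-neighbourhood. -/
def Lng (d : Λ → Λ → ℕ) (Zs : Finset Λ) (R : ℕ) (z : Lp T Λ × Bool) : Prop :=
  Hit (cyl Zs) z.1 ∧ (z.2 = true ∨ Hit (cyl (nbd d R Zs)ᶜ) z.1)

instance (d : Λ → Λ → ℕ) (Zs : Finset Λ) (R : ℕ) : DecidablePred (Lng (T := T) d Zs R) :=
  fun _ => by unfold Lng; infer_instance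

open Classical in
/-- **hypotheses of the excision** of the cylinder over `Zs` in the two-level model `(r, M)`;
the block that is heat bathed is `Cᶜ`; `gx` = good `X`, `gd` = good states. -/
structure Exc (d : Λ → Λ → ℕ) (r : Fin T × Λ → ℝ) (M : Mdl T Λ) (Zs C : Finset Λ)
    (gx gd : Finset (Lp T Λ × Bool) → Prop) (R v0 v1 D : ℕ) (δ σ e : ℝ) : Prop where
  far : ∀ z ∈ Zs, ∀ c ∈ C, R + v1 + 3 * D + 3 ≤ d c z
  e_le : e ≤ 1 / 10000
  σ0 : 0 ≤ σ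
  small : (nbd d (R + 1 + v1) Zs).card * (2 * (σ + 6 * Real.sqrt δ)) + 2 * Real.sqrt δ ≤ 1 / 2
  down : ∀ A z, gd A → gd (A.erase z)
  /-- `X` is good (stationary rarity). -/
  rare : Op.ex (law2 ex ey r M) (Op.ind fun A => ¬gx (A.filter (HitL (cyl Zs)))) ≤ e
  /-- the state is good given a good `X`. -/
  bad : ∀ x, gx x → qq ex ey M.p (fg x) ≠ 0 → (∀ z ∈ x, HitL (cyl Zs) z) →
    Op.ex (law2 ex ey r (chd ex ey M (cyl Zs) (fg x))) (Op.ind fun B => ¬gd (x ∪ B)) ≤ e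
  /-- one-point bound for the long loops. -/
  one : ∀ A, gd A → law2 ex ey r M A ≠ 0 →
    ∑ z ∈ univ.filter (fun z => Lng d Zs R z ∧ gd (insert z A)),
      w2 r M z * up (qq ex ey M.p) (fg A) z.1 ≤ e
  slow : ∀ x, gx x → qq ex ey M.p (fg x) ≠ 0 → (∀ z ∈ x, HitL (cyl Zs) z ∧ ¬Lng d Zs R z) →
    Slow ex ey d (Cheap ex ey d (chd ex ey M (cyl Zs) (fg x)))
      (fun u => (chd ex ey M (cyl Zs) (fg x)).b u ≠ 0) v0
  /-- export of the peel in the clean models with more killed time-`0` points. -/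
  peel : ∀ x, gx x → qq ex ey M.p (fg x) ≠ 0 → (∀ z ∈ x, HitL (cyl Zs) z ∧ ¬Lng d Zs R z) →
    ∀ U ⊆ nbd d (R + 1 + v1) Zs, ∀ a ∈ nbd d (R + 1 + v1) Zs,
      let μ := law2 ex ey r (chd ex ey M (cyl Zs ∪ top U) (fg x))
      Op.var μ (Op.ap (Op.ce μ hi) (Op.ind fun B => B.filter (HitL {(0, a)}) = ∅)) ≤ σ ^ 2

open Classical in
/-- **(Excise)** -/
def ExcStmt : Prop :=
  ∀ (Λ : Type) [Fintype Λ] [DecidableEq Λ] (T : ℕ) [NeZero T] (ex ey : Fin T → Λ)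
    (d : Λ → Λ → ℕ) (r : Fin T × Λ → ℝ) (M : Mdl T Λ) (Zs C S : Finset Λ)
    (gx gd : Finset (Lp T Λ × Bool) → Prop) (Tf δ σ e : ℝ) (K : ℕ → ℝ) (v g : ℕ → ℕ)
    (R N m f D : ℕ), M.Ok 1 → (∀ u, 0 ≤ r u ∧ r u ≤ 1) → (low r M).Ok (Real.exp (-1 / Tf)) →
    Tow ex ey d M S Tf δ K v g N m f D → Exc ex ey d r M Zs C gx gd R (v 0) (v 1) D δ σ e →
    ∀ F : Finset (Lp T Λ × Bool) → ℝ,
      let μ := law2 ex ey r M
      let X : Finset (Lp T Λ × Bool) → Finset (Lp T Λ × Bool) := filter (HitL (cyl Zs))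
      Op.var μ F ≤ 400 * (Op.nsq μ (fun A => F A - Op.ap (Op.ce μ (filter (HiOr (cyl C)))) F A) +
        4 * Dir μ F + 2 * Op.ex μ (fun A => Op.ind (fun A => ¬gx (X A)) A * (F A - Op.ex μ F) ^ 2) +
        Op.ex μ fun A => if gx (X A) then
          Op.var (law2 ex ey r (chd ex ey M (cyl Zs) (fg (X A)))) (fun B => F (X A ∪ B)) else 0)

end Crest.Agent.N337.Ex
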