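import Crest.Agent.N337.B.Defs

/-!
# Row 337, move (b): slow families, locality of one-point observables
-/

set_option autoImplicit false
set_option linter.unusedSectionVars false

namespace Crest.Agent.N337.Ex

open Finset Equiv Crest.Agent.N337.Rep Crest.Agent.N337.LY0 Crest.Agent.N337.A
  Crest.Agent.N337.Gas Crest.Agent.N337.Pc

variable {Λ : Type} [Fintype Λ] [DecidableEq Λ] {T : ℕ} [NeZero T] {ex ey : Fin T → Λ}
  {d : Λ → Λ → ℕ} {M M' M'' : Mdl T Λ} {S : Finset Λ} {Tf δ y : ℝ} {K : ℕ → ℝ} {v g : ℕ → ℕ}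
  {N m f D : ℕ} {r : Fin T × Λ → ℝ} {U : Finset (Fin T × Λ)}

/-- more pins, more killing. -/
def Sub (M' M : Mdl T Λ) : Prop :=
  (∀ s, M'.p s = M.p s ∨ M'.p s = 0 ∨ M'.p s = 1) ∧ ∀ u, M'.b u ≠ 0 → M.b u ≠ 0

lemma Sub.trans (h : Sub M'' M') (h' : Sub M' M) : Sub M'' M :=
  ⟨fun s => (h.1 s).elim (fun e => e ▸ h'.1 s) Or.inr, fun u a => h'.2 u (h.2 u a)⟩

lemma sub_chd (M : Mdl T Λ) (U : Finset (Fin T × Λ)) (x : Finset (Lp T Λ)) :
    Sub (chd ex ey M U x) M :=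
  ⟨fun s => by simp only [chd, pin]; split_ifs <;> simp, fun _ h => (kill_ne h).2⟩

lemma sub_low (r : Fin T × Λ → ℝ) (M : Mdl T Λ) : Sub (low r M) M :=
  ⟨fun _ => Or.inl rfl, fun _ h => right_ne_zero_of_mul h⟩

lemma sub_kil (M : Mdl T Λ) (U : Finset (Fin T × Λ)) : Sub (kil M U) M :=
  ⟨fun _ => Or.inl rfl, fun _ h => (kill_ne h).2⟩

lemma Tow.sub (h : Tow ex ey d M S Tf δ K v g N m f D) (hM : M.Ok y) (hs : Sub M' M) :
    Tow ex ey d M' S Tf δ K v g N m f D :=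
  ⟨h.met, fun u a => h.sup u (hs.2 u a), h.card, h.one, fun i hi => ⟨(h.tow i hi).1,
    (h.tow i hi).2.1.of_le le_rfl (fun s => (hM.1 s).1) hs.1, (h.tow i hi).2.2⟩, h.num⟩

lemma Tow.δ0 (h : Tow ex ey d M S Tf δ K v g N m f D) : 0 < δ := h.num.2.1

lemma Tow.δ1 (h : Tow ex ey d M S Tf δ K v g N m f D) : δ ≤ 1 / 8 := h.num.2.2.1

variable (ex ey) in
/-- the pins of the model together with the active steps of the family are slow. -/
def SlowG (d : Λ → Λ → ℕ) (M : Mdl T Λ) (v : ℕ) (A : Finset (Lp T Λ)) : Prop :=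
  Slow ex ey d (fun s => Cheap ex ey d M s ∨ cn A s = true) (fun u => M.b u ≠ 0) v

lemma cn_mono {A B : Finset (Lp T Λ)} (h : A ⊆ B) {s : Fin T} (hs : cn A s = true) :
    cn B s = true := by
  simp only [cn, decide_eq_true_eq] at hs ⊢
  exact hs.imp fun g hg => ⟨h hg.1, hg.2⟩

lemma SlowG.chd {w : ℕ} {A B : Finset (Lp T Λ)} (h : SlowG ex ey d M w B) (hA : A ⊆ B)
    (hp : M'.p = M.p) (hb : ∀ u, M'.b u ≠ 0 → M.b u ≠ 0) (U : Finset (Fin T × Λ)) :
    Slow ex ey d (Cheap ex ey d (chd ex ey M' U A)) (fun u => (chd ex ey M' U A).b u ≠ 0) w := by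
  refine Slow.mono' h le_rfl (fun u a => hb u (kill_ne a).2) fun s _ _ _ hc => ?_
  rcases hc with hc | hc
  · simp only [Gas.chd, pin] at hc
    split_ifs at hc with h1 h2
    exacts [Or.inr (cn_mono hA h2), absurd hc zero_ne_one, Or.inl (Or.inl (hp ▸ hc))]
  · exact Or.inl (Or.inr hc)

open Classical in
/-- fast families are rare. -/
theorem fast_law (h : Tow ex ey d M S Tf δ K v g N m f D) (hM : M.Ok y) (hy : 0 ≤ y) {i : ℕ}
    (hi : i < 4) (hs : Slow ex ey d (Cheap ex ey d M) (fun u => M.b u ≠ 0) (v i)) :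
    Op.ex (law ex ey M) (Op.ind fun A => ¬SlowG ex ey d M (v (i + 1)) A) ≤ δ := by
  obtain ⟨h1, h2, h3⟩ := h.tow i hi
  refine (dn_le_Pb hM fun ω hw a b => a ?_).trans
    ((fastS ex ey (g i) h.met hM hy h2 hs lab_lab1 h.sup h.card).trans h3)
  rw [h1]
  refine Slow.mono' b le_rfl (fun _ h => h) fun s _ _ _ hc => ?_
  rcases hc with (hc | hc) | hc
  exacts [Or.inl (wt_p1 hw hc), Or.inr hc, Or.inl (by
    rw [cn_eq (dn_sub ω)] at hc
    split_ifs at hc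
    exact hc)]

/-- a loop of a slow family passes time `0` near each of its points. -/
lemma reach {w : ℕ} {A : Finset (Lp T Λ)} (hA : law ex ey M A ≠ 0) (h : SlowG ex ey d M w A)
    {l : Lp T Λ} (hl : l ∈ A) {u : Fin T × Λ} (hu : u ∈ l.2) :
    ∃ x, (0, x) ∈ l.2 ∧ d u.2 x ≤ w := by
  obtain ⟨ξ, -, hξ⟩ := qq_supp (nu_supp hA).1
  have hb := prod_ne_zero_iff.1 ((nu_supp hA).2 l hl)
  have hm : ∀ k, (Sg ex ey ξ ^ k) u ∈ l.2 := fun k => by
    rw [eq_lp (hξ hl) hu]; exact mem_obv.2 (o_pow _ _ _)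
  have h0 : ((Sg ex ey ξ ^ (T - u.1.val)) u).1 = 0 := by
    apply Fin.ext
    rw [Sg_pow_val, Nat.add_sub_cancel' u.1.2.le]; simp
  refine ⟨((Sg ex ey ξ ^ (T - u.1.val)) u).2, h0 ▸ hm _, seg_le h ξ u (fun k => ?_)
    (fun k _ => hb _ (hm k)) _ (by have := u.1.2; omega)⟩
  set c := (Sg ex ey ξ ^ k) u with hc
  have e : ((Sg ex ey ξ ^ (k + 1)) u).2 = sg (ex c.1) (ey c.1) (ξ c.1) c.2 := by
    rw [pow_succ', Perm.mul_apply, ← hc]; rfl
  rw [e]
  by_cases h2 : ξ c.1 = true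
  · by_cases h3 : c.2 = ex c.1 ∨ c.2 = ey c.1
    · refine Or.inr ⟨Or.inr ?_, by simp [sg, h2]⟩
      rw [cn_eq hξ, if_pos, h2]
      have h4 : (c.1, c.2) ∈ l.2 := hm k
      exact tch_pts.2 ⟨l, hl, h3.imp (fun a => by rwa [a] at h4) fun a => by rwa [a] at h4⟩
    · push Not at h3
      exact Or.inl (by simp [sg, h2, swap_apply_of_ne_of_ne h3.1 h3.2])
  · exact Or.inl (by simp [sg, h2])

/-- **locality**: far loops do not influence a local observable. -/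
theorem loc_var (h : Tow ex ey d M S Tf δ K v g N m f D) (hM : M.Ok (Real.exp (-1 / Tf)))
    (hs : Slow ex ey d (Cheap ex ey d M) (fun u => M.b u ≠ 0) (v 1)) {C : Finset Λ}
    {ψ : Finset (Lp T Λ) → ℝ} (h1 : ∀ A, |ψ A| ≤ 1)
    (hψ : ∀ A, ψ (A.filter (Hit (cyl (nbd d (2 * D + 1) (nbd d D C))ᶜ))) = ψ A) :
    Op.var (law ex ey M) (Op.ap (Op.ce (law ex ey M) (filter (Hit (cyl C)))) ψ) ≤ 33 * δ := by
  classical
  obtain ⟨v1, R1, g1⟩ := h.tow 1 (by omega)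
  obtain ⟨v2, R2, g2⟩ := h.tow 2 (by omega)
  have a3 : App ex ey d M lab1 m ((g 2 + 1) * (v 2 + 1))
      (cyl (nbd d (2 * D + 1) (univ ∩ nbd d D C))ᶜ) (fun ω => ψ (dn ex ey ω)) 0 :=
    ⟨fun ω => ψ (dn ex ey ω), fun _ => h1 _, fun ω hw _ => by
      beta_reduce
      rw [dn_res (wt_cl hw), univ_inter, hψ, sub_self, abs_zero]⟩
  obtain ⟨φ, hφ, a0⟩ := step h.sup h.card h.one h.met hM (h.tow 3 (by omega)).2.1 h.num lab_lab1
    (by rw [v2]; nlinarith) R2 g2 le_rfl (fun _ => h1 _) a3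
  have e0 : ∀ ω' : St T Λ Unit, res ex ey (cyl univᶜ) ω' = (fun _ => false, fun _ => none) :=
    fun ω' => by
      have e : rn ex ey (cyl univᶜ) ω' = fun _ => none := by funext w; simp [rn, cyl]
      simp only [res, e]
      simp [Tch]
  simp only [e0, zero_add] at a0
  have hP := Pb_not_Gd (M := M) m (g 1) h.met hM (Real.exp_pos _).le lab_lab1 h.sup h.sup h.card
    (fun _ h => h) R1 hs
  rw [← v1] at hP
  have h5 := (h.num.small h.one).2
  have h6 := h.δ0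
  have h7 := h.δ1
  refine ((pr_law hM).var_le_sub _ (φ (fun _ => false, fun _ => none))).trans ?_
  rw [Op.nsq_eq_ex, ← Ev_dn]
  have h8 : Ev ex ey M lab1 (fun ω => (14 * δ) ^ 2 +
      4 * if ¬ Gd ex ey d M m (v (1 + 1)) ω then 1 else 0) ≤ 33 * δ := by
    rw [Ev_add, Ev_mul, Ev_const bas hM lab_lab1]
    have : Ev ex ey M lab1 (fun ω => if ¬ Gd ex ey d M m (v (1 + 1)) ω then 1 else 0) ≤ _ :=
      le_trans (le_of_eq (by unfold Pb; congr; funext ω; congr)) hP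
    nlinarith
  refine le_trans (Ev_mono bas hM lab_lab1 fun ω hw => ?_) h8
  rw [← Pk_dn hM (cyl C) (fun _ _ => rfl) ω hw]
  split_ifs with a
  · have := a0 ω hw a
    rw [← sq_abs, mul_zero, add_zero]
    exact pow_le_pow_left₀ (abs_nonneg _) this 2
  · have b1 := abs_le.1 (Pk_abs (ex := ex) (ey := ey) (U := cyl C) hM lab_lab1
      (F := fun ω => ψ (dn ex ey ω)) (fun _ => h1 _) ω)
    have b2 := abs_le.1 (hφ (fun _ => false, fun _ => none))
    nlinarith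

end Crest.Agent.N337.Ex
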