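import Crest.Agent.N337.B.Path

/-!
# Row 337, move (b): the excision
-/

set_option autoImplicit false
set_option linter.unusedSectionVars false

namespace Crest.Agent.N337.Ex

open Finset Equiv Crest.Agent.N337.Rep Crest.Agent.N337.LY0 Crest.Agent.N337.A
  Crest.Agent.N337.Gas Crest.Agent.N337.Pc

section gas
variable {Γ : Type} [Fintype Γ] [DecidableEq Γ] {q : Finset Γ → ℝ} {u : Γ × Bool → ℝ}

lemma up_nn (hq : Cpt q) (w : Finset Γ) (g : Γ) : 0 ≤ up q w g := by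
  unfold up; split_ifs
  exacts [le_rfl, div_nonneg (hq.nn _) (hq.nn _)]

/-- births in a labelled gas. -/
lemma nu_insert_le (hq : Cpt q) (hu : ∀ z, 0 ≤ u z) {A : Finset (Γ × Bool)} {z : Γ × Bool}
    (hz : z ∉ A) : nu (qL q) u (insert z A) ≤ nu (qL q) u A * (u z * up q (fg A) z.1) := by
  have h0 := mul_nonneg (nu_nn hq.qL hu A) (mul_nonneg (hu z) (up_nn hq (fg A) z.1))
  by_cases h : qL q (insert z A) = 0
  · rwa [nu, gw, h, zero_mul, zero_div]
  have hA := hq.qL.ne_of_sub (subset_insert z A) h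
  have h1 : z.1 ∉ fg A := fun a => by
    obtain ⟨c, hc⟩ := mem_fg.1 a
    exact hz ((qL_supp h).1 _ (mem_insert_of_mem hc) z (mem_insert_self _ _) rfl ▸ hc)
  rw [nu, nu, gw_insert hz hA, up, if_neg h1, sh, sh, union_comm A, ← insert_eq, qL,
    if_pos (qL_supp h).1, qL, if_pos (qL_supp hA).1, insert_eq, fg_union, union_comm]
  exact le_of_eq (by simp only [fg, image_singleton]; ring)

end gas

variable {Λ : Type} [Fintype Λ] [DecidableEq Λ] {T : ℕ} [NeZero T] {ex ey : Fin T → Λ}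
  {d : Λ → Λ → ℕ} {M : Mdl T Λ} {S Zs C : Finset Λ} {Tf δ σ e : ℝ} {K : ℕ → ℝ} {v g : ℕ → ℕ}
  {R N m f D : ℕ} {r : Fin T × Λ → ℝ} {gx gd : Finset (Lp T Λ × Bool) → Prop}

lemma mem_top {U : Finset Λ} {a : Λ} : ((0, a) : Fin T × Λ) ∈ top U ↔ a ∈ U := by simp [top]

lemma Exc.slow' {v0 v1 : ℕ} (E : Exc ex ey d r M Zs C gx gd R v0 v1 D δ σ e)
    {x : Finset (Lp T Λ × Bool)} (h1 : gx x) (h2 : qq ex ey M.p (fg x) ≠ 0)
    (h3 : ∀ z ∈ x, HitL (cyl Zs) z ∧ ¬Lng d Zs R z) (U : Finset (Fin T × Λ)) :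
    Slow ex ey d (Cheap ex ey d (chd ex ey M (cyl Zs ∪ U) (fg x)))
      (fun u => (chd ex ey M (cyl Zs ∪ U) (fg x)).b u ≠ 0) v0 :=
  Slow.mono' (E.slow x h1 h2 h3) le_rfl (fun u a => by
    rw [← kil_chd] at a; exact (kill_ne a).2) fun _ _ _ _ a => a

lemma ind_loc {U : Finset (Fin T × Λ)} {u : Fin T × Λ} (hu : u ∈ U) (H A : Finset (Lp T Λ)) :
    Op.ind (fun A : Finset (Lp T Λ) => A.filter (Hit {u}) = ∅) (H ∪ A.filter (Hit U)) =
      Op.ind (fun A : Finset (Lp T Λ) => A.filter (Hit {u}) = ∅) (H ∪ A) := by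
  have b3 : (H ∪ A.filter (Hit U)).filter (Hit {u}) = (H ∪ A).filter (Hit {u}) := by
    ext l
    simp only [mem_filter, mem_union]
    exact and_congr_left fun ⟨w, u1, u2⟩ => or_congr_right
      (and_iff_left ⟨w, u1, mem_singleton.1 u2 ▸ hu⟩)
  simp only [Op.ind, b3]

lemma var_pt (hM : M.Ok 1) (hr : ∀ u, 0 ≤ r u ∧ r u ≤ 1)
    (hL : (low r M).Ok (Real.exp (-1 / Tf))) (h : Tow ex ey d M S Tf δ K v g N m f D)
    (E : Exc ex ey d r M Zs C gx gd R (v 0) (v 1) D δ σ e) {x : Finset (Lp T Λ × Bool)}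
    (h1 : gx x) (h2 : qq ex ey M.p (fg x) ≠ 0) (h3 : ∀ z ∈ x, HitL (cyl Zs) z ∧ ¬Lng d Zs R z)
    (U : Finset Λ) (hU : U ⊆ nbd d (R + 1 + v 1) Zs) (a : Λ) (ha : a ∈ nbd d (R + 1 + v 1) Zs) :
    Op.var (law2 ex ey r (kil (chd ex ey M (cyl Zs) (fg x)) (top U)))
      (Op.ap (Op.ce (law2 ex ey r (kil (chd ex ey M (cyl Zs) (fg x)) (top U)))
        (filter (HiOr (cyl C)))) (Op.ind fun B => B.filter (HitL {(0, a)}) = ∅)) ≤
      (σ + 6 * Real.sqrt δ) ^ 2 := by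
  have t := h.met.2.2.1
  have b1 := E.peel x h1 h2 h3 U hU a ha
  have b2 : (0, a) ∈ (cyl (nbd d (2 * D + 1) (nbd d D C))ᶜ : Finset (Fin T × Λ)) := by
    refine mem_cyl.2 (mem_compl.2 fun b => ?_)
    simp only [mem_nbd] at b ha
    obtain ⟨c', ⟨c, hc, d1⟩, d2⟩ := b
    obtain ⟨z, hz, d3⟩ := ha
    have := E.far z hz c hc
    have := t c c' z
    have := t c' a z
    have := h.met.2.1 c c'
    have := h.met.2.1 a c'
    omega
  have b3 : (low r (chd ex ey M (cyl Zs ∪ top U) (fg x))).Ok (Real.exp (-1 / Tf)) := by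
    rw [low_chd]; exact ok_chd hL _ _
  have b4 := var_eta (h.sub hM (sub_chd _ _ _)) (ok_chd hM _ _) hr b3 (E.slow' h1 h2 h3 (top U))
    (abs_ind_le _) (ind_loc b2)
  rw [← ind_HitL] at b4
  rw [kil_chd]
  refine b4.trans ((add_le_add b1 le_rfl).trans ?_)
  nlinarith [Real.sq_sqrt h.δ0.le, E.σ0, h.δ0, Real.sqrt_nonneg δ]

/-- **B4**: the law of `η` hardly depends on a short good `X`. -/
theorem tv_one (hM : M.Ok 1) (hr : ∀ u, 0 ≤ r u ∧ r u ≤ 1)
    (hL : (low r M).Ok (Real.exp (-1 / Tf))) (h : Tow ex ey d M S Tf δ K v g N m f D)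
    (E : Exc ex ey d r M Zs C gx gd R (v 0) (v 1) D δ σ e) {x : Finset (Lp T Λ × Bool)}
    (h1 : gx x) (h2 : qq ex ey M.p (fg x) ≠ 0) (h3 : ∀ z ∈ x, HitL (cyl Zs) z ∧ ¬Lng d Zs R z)
    (φ : Finset (Lp T Λ × Bool) → ℝ) (hφ : ∀ b, |φ b| ≤ 1) :
    |Op.ex (law2 ex ey r (kil M (cyl Zs ∪ top (nbd d (R + 1 + v 1) Zs) ∪ cyl (nbd d (R + 1) Zs))))
        (fun B => φ (B.filter (HiOr (cyl C)))) -
      Op.ex (law2 ex ey r (chd ex ey M (cyl Zs) (fg x))) fun B => φ (B.filter (HiOr (cyl C)))| ≤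
      1 / 2 := by
  have t := h.met.2.2.1
  have s0 := Real.sqrt_nonneg δ
  have a1 := chain (ok_chd hM (cyl Zs) (fg x)) hr (filter (HiOr (cyl C))) (by linarith [E.σ0])
    (var_pt hM hr hL h E h1 h2 h3) φ hφ _ Subset.rfl
  rw [kil_chd] at a1
  have a2 := last (h.sub hM (sub_chd _ (cyl Zs ∪ top (nbd d (R + 1 + v 1) Zs)) (fg x)))
    (ok_chd hM _ _) hr (E.slow' h1 h2 h3 _) (W := nbd d (R + 1) Zs) (fun a ha b hb => by
      refine if_pos (mem_union_left _ (mem_union_right _ (mem_top.2 ?_)))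
      obtain ⟨z, hz, d1⟩ := mem_nbd.1 ha
      have := t b a z
      have := h.met.2.1 a b
      exact mem_nbd.2 ⟨z, hz, by omega⟩) (filter (HiOr (cyl C))) φ hφ
  rw [kil_chd, law2_forget h.met (W := nbd d R Zs) (W' := nbd d (R + 1) Zs) (fun u hu => ?_)
    (fun a ha => ?_) subset_union_right] at a2
  · have := E.small
    rw [abs_le] at a1 a2 ⊢
    constructor <;> linarith [a1.1, a1.2, a2.1, a2.2]
  · obtain ⟨l, hl, u1⟩ := mem_pts.1 hu
    obtain ⟨c, hc⟩ := mem_fg.1 hl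
    by_contra u2
    exact (h3 _ hc).2 ⟨(h3 _ hc).1, Or.inr ⟨u, u1, mem_cyl.2 (mem_compl.2 u2)⟩⟩
  · simp only [mem_nbd] at ha ⊢
    obtain ⟨b, ⟨z, hz, d1⟩, d2⟩ := ha
    exact ⟨z, hz, (t a b z).trans (by omega)⟩

/-- **the excision.** -/
theorem excise : ExcStmt := by
  intro Λ _ _ T _ ex ey d r M Zs C S gx gd Tf δ σ e K v g R N m f D hM hr hL h E F μ X
  classical
  have hμ : Op.Pr μ := pr_law2 hM hr
  set Lg : Finset (Lp T Λ × Bool) := univ.filter (Lng d Zs R) with hLg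
  have mL : ∀ z, z ∈ Lg ↔ Lng d Zs R z := fun z => by simp [hLg]
  have e0 : 0 ≤ e := (Op.ex_nn hμ.nn (Op.ind_nn _)).trans E.rare
  have hd : ∀ A z, gd A → z ∈ Lg → gd (A.erase z) := fun A z a _ => E.down A z a
  have hp : ∀ A, gd A → ∑ z ∈ Lg \ A, Op.ind gd (insert z A) * μ (insert z A) ≤ e * μ A := by
    intro A hA
    have k : ∑ z ∈ Lg \ A, Op.ind gd (insert z A) * μ (insert z A) ≤
        μ A * ∑ z ∈ univ.filter (fun z => Lng d Zs R z ∧ gd (insert z A)),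
          w2 r M z * up (qq ex ey M.p) (fg A) z.1 := by
      simp only [Op.ind, ite_mul, one_mul, zero_mul, ← sum_filter, mul_sum]
      refine (sum_le_sum fun z hz => nu_insert_le (cpt_M hM) (w2_nn hM hr)
        (mem_sdiff.1 (mem_filter.1 hz).1).2).trans
        (sum_le_sum_of_subset_of_nonneg (fun z hz => ?_) fun z _ _ =>
          mul_nonneg (hμ.nn A) (mul_nonneg (w2_nn hM hr z) (up_nn (cpt_M hM) _ _)))
      rw [mem_filter, mem_sdiff, mL] at hz
      exact mem_filter.2 ⟨mem_univ _, hz.1.1, hz.2⟩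
    by_cases h0 : μ A = 0
    · rwa [h0, zero_mul, ← mul_zero e, ← h0] at k
    · rw [mul_comm e]
      exact k.trans (mul_le_mul_of_nonneg_left (E.one A hA h0) (hμ.nn A))
  have sX : ∀ A, X A ∩ Lg = A ∩ Lg := fun A => by
    ext z
    simp only [X, mem_inter, mem_filter, mL]
    exact and_congr_left fun a => and_iff_left a.1
  have sh1 : ∀ x, x ∩ Lg = ∅ → (∀ z ∈ x, HitL (cyl Zs) z) →
      ∀ z ∈ x, HitL (cyl Zs) z ∧ ¬Lng d Zs R z := fun x a b z hz =>
    ⟨b z hz, fun c => notMem_empty z (a ▸ mem_inter.2 ⟨hz, (mL z).2 c⟩)⟩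
  have sh2 : ∀ x : Finset (Lp T Λ × Bool), (∀ z ∈ x, HitL (cyl Zs) z ∧ ¬Lng d Zs R z) → ∀ B,
      (x ∪ B).filter (HiOr (cyl C)) = B.filter (HiOr (cyl C)) := fun x a B => by
    rw [filter_union, filter_false_of_mem, empty_union]
    rintro z hz (b | ⟨u, u1, u2⟩)
    · exact (a z hz).2 ⟨(a z hz).1, Or.inl b⟩
    · refine (a z hz).2 ⟨(a z hz).1, Or.inr ⟨u, u1, mem_cyl.2 (mem_compl.2 fun c => ?_)⟩⟩
      obtain ⟨y, hy, d1⟩ := mem_nbd.1 c
      have := E.far y hy _ (mem_cyl.1 u2)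
      omega
  have hc := Op.exc_con hμ X (filter (HiOr (cyl C))) (Op.gasK Lg gd) gx (fun x => x ∩ Lg = ∅)
    (fun A => ¬gd A) E.e_le E.rare (fun x a b => by
      rw [ex_cond2 hM hr b]
      exact E.bad x a (mass2_supp hM b).1 (mass2_supp hM b).2)
    (fun A A' a b => by
      unfold Op.gasK at a
      rw [if_neg b] at a
      split_ifs at a
      exact Sum.inr.inj a)
    (fun A A' a b c => by
      have k : ∀ A, X A ∩ Lg = ∅ → X A = X (A \ Lg) := fun A a => by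
        ext z
        simp only [X, mem_filter, mem_sdiff]
        exact and_congr_left fun b => (and_iff_left_of_imp fun c d =>
          notMem_empty z (a ▸ mem_inter.2 ⟨mem_filter.2 ⟨c, b⟩, d⟩)).symm
      unfold Op.gasK at a
      split_ifs at a
      · rw [k A b, k A' c, Sum.inl.inj a]
      · rw [Sum.inr.inj a])
    (fun A a b => by
      refine le_trans (le_of_eq ?_) (Op.gas_long hμ.nn hd hp a (not_not.1 b))
      congr 1; funext B; simp only [Op.ind, sX])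
    (fun x x' a a' b b' φ hφ => by
      have c := sh1 x a.2 (mass2_supp hM b).2
      have c' := sh1 x' a'.2 (mass2_supp hM b').2
      have t1 := tv_one hM hr hL h E a.1 (mass2_supp hM b).1 c φ hφ
      have t2 := tv_one hM hr hL h E a'.1 (mass2_supp hM b').1 c' φ hφ
      rw [ex_cond2 hM hr b, ex_cond2 hM hr b']
      simp only [sh2 x c, sh2 x' c']
      rw [abs_le] at t1 t2 ⊢
      constructor <;> linarith [t1.1, t1.2, t2.1, t2.2])
  have he := E.e_le
  have pP := Op.proj_ps hμ (S := fun A => ¬gx (X A)) (by linarith [E.rare])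
  have hv := Op.var_le_word hμ (L := [_, _, _, _]) (by
      simp only [List.mem_cons, List.not_mem_nil, or_false]
      rintro _ (rfl | rfl | rfl | rfl)
      exacts [(Op.proj_ce hμ.nn _).ker, (Op.proj_ce hμ.nn _).ker, pP.ker, (Op.proj_ce hμ.nn _).ker])
    (by
      simp only [List.mem_cons, List.not_mem_nil, or_false]
      rintro _ (rfl | rfl | rfl | rfl)
      exacts [(Op.proj_ce hμ.nn _).ctr hμ.nn, (Op.proj_ce hμ.nn _).ctr hμ.nn, pP.ctr hμ.nn,
        (Op.proj_ce hμ.nn _).ctr hμ.nn]) (by norm_num) (by norm_num) hc F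
  simp only [List.map_cons, List.map_nil, List.sum_cons, List.sum_nil, List.length_cons,
    List.length_nil] at hv
  have r3 := (Op.gas_res hμ.nn hd (by linarith) hp F).trans (mul_le_mul_of_nonneg_left
    (show _ ≤ Dir μ F from Op.ex_mono hμ.nn fun A =>
      sum_le_sum_of_subset_of_nonneg inter_subset_left fun _ _ _ => sq_nonneg _) (by norm_num))
  have r2 := Op.res_ps_le hμ (S := fun A => ¬gx (X A)) (by linarith [E.rare]) F
  have r1 : Op.nsq μ (fun A => F A - Op.ap (Op.ce μ (Op.hat X gx)) F A) =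
      Op.ex μ fun A => if gx (X A) then
        Op.var (law2 ex ey r (chd ex ey M (cyl Zs) (fg (X A)))) (fun B => F (X A ∪ B)) else 0 := by
    rw [(Op.proj_ce hμ.nn _).res_eq (Op.ce_nn hμ.nn)]
    refine Op.ex_congr fun A a => ?_
    rw [Op.res_hat_row hμ.nn X gx a]
    split_ifs
    · exact var_cond2 hM hr (Op.mass_ne hμ.nn a) F
    · simp [Op.var, Op.nsq, Op.ex, Op.idk]
  rw [r1] at hv
  push_cast at hv
  linarith

end Crest.Agent.N337.Ex
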