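import Crest.Agent.N337.B.Loc
import Crest.Agent.N337.Op.Exc

/-!
# Row 337, move (b): the killing path
-/

set_option autoImplicit false
set_option linter.unusedSectionVars false

namespace Crest.Agent.N337.Ex

open Finset Equiv Crest.Agent.N337.Rep Crest.Agent.N337.LY0 Crest.Agent.N337.A
  Crest.Agent.N337.Gas Crest.Agent.N337.Pc

section op
variable {Ω κ κ' : Type} [Fintype Ω] [DecidableEq Ω] [DecidableEq κ] [DecidableEq κ'] {μ : Ω → ℝ}
  {π : Ω → κ} {π' : Ω → κ'}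

lemma ex_cond_tower (hμ : ∀ ω, 0 ≤ μ ω) (h : ∀ ω ω', π ω = π ω' → π' ω = π' ω') (c : κ')
    (f : Ω → ℝ) : Op.ex (Op.cond μ π' c) (Op.ap (Op.ce μ π) f) = Op.ex (Op.cond μ π' c) f := by
  have e : ∀ f : Ω → ℝ, Op.ex (Op.cond μ π' c) f =
      Op.ex μ fun ω => (if π' ω = c then 1 / Op.mass μ π' c else 0) * f ω := fun f =>
    sum_congr rfl fun ω _ => by
      unfold Op.cond; beta_reduce; split_ifs <;> ring
  rw [e, e, Op.ex_mul_ce hμ fun a b hab => by rw [h a b hab]]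

/-- variance of a conditional expectation, split along a coarser partition. -/
lemma var_tower (hμ : Op.Pr μ) (h : ∀ ω ω', π ω = π ω' → π' ω = π' ω') (f : Ω → ℝ) :
    Op.var μ (Op.ap (Op.ce μ π) f) = Op.var μ (Op.ap (Op.ce μ π') f) +
      Op.ex μ fun ω => Op.var (Op.cond μ π' (π' ω)) (Op.ap (Op.ce μ π) f) := by
  rw [(Op.proj_ce hμ.nn π').var_split hμ, Op.res_ce hμ.nn, add_comm]
  congr 1
  exact Op.var_congr fun ω a => by
    rw [Op.ap_ce_ae hμ.nn _ a, Op.ap_ce_ae hμ.nn _ a, ex_cond_tower hμ.nn h]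

lemma abs_ex_le_one (hμ : Op.Pr μ) {f : Ω → ℝ} (h : ∀ ω, |f ω| ≤ 1) : |Op.ex μ f| ≤ 1 := by
  have h1 := Op.ex_mono hμ.nn fun ω => (abs_le.1 (h ω)).1
  have h2 := Op.ex_mono hμ.nn fun ω => (abs_le.1 (h ω)).2
  rw [hμ.ex_const] at h1 h2
  exact abs_le.2 ⟨h1, h2⟩

lemma var_le_one (hμ : Op.Pr μ) {f : Ω → ℝ} (h : ∀ ω, |f ω| ≤ 1) : Op.var μ f ≤ 1 := by
  refine (hμ.var_le f).trans ?_
  rw [Op.nsq_eq_ex, ← hμ.ex_const 1]
  exact Op.ex_mono hμ.nn fun ω => by rw [← sq_abs]; exact pow_le_one₀ (abs_nonneg _) (h ω)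

lemma abs_ind_le {α : Type} (S : α → Prop) [DecidablePred S] (a : α) : |Op.ind S a| ≤ 1 := by
  rw [abs_of_nonneg (Op.ind_nn _ _)]; exact Op.ind_le_one _ _

lemma ex_ind_not (hμ : Op.Pr μ) (S : Ω → Prop) [DecidablePred S] :
    Op.ex μ (Op.ind fun ω => ¬S ω) = 1 - Op.ex μ (Op.ind S) := by
  rw [← hμ.ex_compl]; congr 1; funext ω; by_cases hs : S ω <;> simp [Op.ind, hs]

lemma var_ce_ind (hμ : Op.Pr μ) (S : Ω → Prop) [DecidablePred S] (π : Ω → κ) :
    Op.var μ (Op.ap (Op.ce μ π) (Op.ind S)) ≤ Op.ex μ (Op.ind fun ω => ¬S ω) := by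
  have h1 := (Op.proj_ce hμ.nn π).var_split hμ (Op.ind S)
  have h2 := Op.nsq_nn hμ.nn fun ω => Op.ind S ω - Op.ap (Op.ce μ π) (Op.ind S) ω
  have h3 := hμ.var_le_sub (Op.ind S) 1
  have h4 : (Op.nsq μ fun ω => Op.ind S ω - 1) = Op.ex μ (Op.ind fun ω => ¬S ω) := by
    rw [Op.nsq_eq_ex]; congr 1; funext ω; by_cases hs : S ω <;> simp [Op.ind, hs]
  linarith

end op

variable {Λ : Type} [Fintype Λ] [DecidableEq Λ] {T : ℕ} [NeZero T] {ex ey : Fin T → Λ}
  {d : Λ → Λ → ℕ} {M : Mdl T Λ} {S : Finset Λ} {Tf δ y : ℝ} {K : ℕ → ℝ} {v g : ℕ → ℕ}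
  {N m f D : ℕ} {r : Fin T × Λ → ℝ} {U : Finset (Fin T × Λ)}

lemma law_chd_supp {x A : Finset (Lp T Λ)} (hx : qq ex ey M.p x ≠ 0)
    (hA : law ex ey (chd ex ey M U x) A ≠ 0) : qq ex ey M.p (x ∪ A) ≠ 0 := by
  have := (nu_supp hA).1
  simp only [chd, ← sh_qq hx, sh] at this
  exact (div_ne_zero_iff.1 this).1

lemma filter_HiOr {H : Finset (Lp T Λ × Bool)} (hH : ∀ z ∈ H, HiOr ∅ z) (A : Finset (Lp T Λ)) :
    (H ∪ lb A).filter (HiOr U) = H ∪ lb (A.filter (Hit U)) := by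
  ext z
  simp only [mem_filter, mem_union, mem_lb, HiOr]
  have := hH z
  simp only [HiOr, Hit, notMem_empty, and_false, exists_false, or_false] at this
  cases h : z.2 <;> simp_all

lemma filter_HitL (B : Finset (Lp T Λ × Bool)) :
    B.filter (HitL U) = ∅ ↔ (fg B).filter (Hit U) = ∅ := by
  rw [← fg_filter, fg, image_eq_empty]; rfl

lemma ind_HitL (U : Finset (Fin T × Λ)) : (Op.ind fun B : Finset (Lp T Λ × Bool) =>
    B.filter (HitL U) = ∅) = fun B => Op.ind (fun A => A.filter (Hit U) = ∅) (fg B) := by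
  funext B; simp only [Op.ind, filter_HitL]

/-- **B5**: far medium loops do not matter for a local observable. -/
theorem var_eta (h : Tow ex ey d M S Tf δ K v g N m f D) (hM : M.Ok 1)
    (hr : ∀ u, 0 ≤ r u ∧ r u ≤ 1) (hL : (low r M).Ok (Real.exp (-1 / Tf)))
    (hs : Slow ex ey d (Cheap ex ey d M) (fun u => M.b u ≠ 0) (v 0)) {C : Finset Λ}
    {ψ : Finset (Lp T Λ) → ℝ} (h1 : ∀ A, |ψ A| ≤ 1)
    (hψ : ∀ H A, ψ (H ∪ A.filter (Hit (cyl (nbd d (2 * D + 1) (nbd d D C))ᶜ))) = ψ (H ∪ A)) :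
    Op.var (law2 ex ey r M) (Op.ap (Op.ce (law2 ex ey r M) (filter (HiOr (cyl C)))) fun B => ψ (fg B))
      ≤ Op.var (law2 ex ey r M) (Op.ap (Op.ce (law2 ex ey r M) hi) fun B => ψ (fg B)) + 34 * δ := by
  classical
  have hμ := pr_law2 (ex := ex) (ey := ey) hM hr
  rw [var_tower (π' := hi) hμ fun a b hab => by
    have e : ∀ a : Finset (Lp T Λ × Bool), hi a = hi (a.filter (HiOr (cyl C))) := fun a => by
      ext z; simp only [hi, mem_filter, HiOr]; tauto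
    rw [e a, e b, hab]]
  refine add_le_add le_rfl ?_
  have h2 := fast_law h hM zero_le_one (by omega : 0 < 4) hs
  rw [← ex_law2 r] at h2
  have h3 : Op.ex (law2 ex ey r M) (fun B => 33 * δ +
      Op.ind (fun A => ¬SlowG ex ey d M (v (0 + 1)) A) (fg B)) ≤ 34 * δ := by
    rw [Op.ex_add, hμ.ex_const]; linarith
  refine le_trans (Op.ex_mono_ae hμ.nn fun B hB => ?_) h3
  have hm := Op.mass_ne (π := hi) hμ.nn hB
  have h0 := h.δ0
  by_cases hS : SlowG ex ey d M (v (0 + 1)) (fg B)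
  swap
  · refine (var_le_one (Op.pr_cond hμ.nn hm) fun B' => ?_).trans (by simp [Op.ind, hS]; linarith)
    exact abs_ex_le_one (Op.pr_ce hμ.nn B') fun _ => h1 _
  rw [Op.var_congr (g := fun B' => Op.ex (law ex ey (chd ex ey (low r M) (cyl C)
    (fg (B'.filter (HiOr (cyl C)))))) fun A => ψ (fg (B'.filter (HiOr (cyl C))) ∪ A)) fun B' a => by
      have a' := (Op.cond_supp a).2
      rw [Op.ap_ce_ae hμ.nn _ a', ex_condH hM hr (Op.mass_ne hμ.nn a')]
      simp only [fg_union, fg_lb]]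
  rw [hi_eq] at hm ⊢
  obtain ⟨q1, q2⟩ := mass2_supp hM hm
  rw [var_condH hM hr hm]
  set H := B.filter (HiOr ∅)
  have hL' := ok_chd (ex := ex) (ey := ey) hL ∅ (fg H)
  have h4 := loc_var (h.sub hM ((sub_chd _ ∅ (fg H)).trans (sub_low r M))) hL'
    (hS.chd (M' := low r M) (fg_mono (filter_subset _ _)) rfl (sub_low r M).2 ∅) (C := C)
    (ψ := fun A => ψ (fg H ∪ A)) (fun _ => h1 _) (hψ _)
  refine le_trans (le_of_eq (Op.var_congr fun A hA => ?_)) (h4.trans (by simp [Op.ind, hS]))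
  have q3 : qq ex ey (low r M).p (fg H ∪ A.filter (Hit (cyl C))) ≠ 0 :=
    (cpt_M hL).ne_of_sub (union_subset_union_right (filter_subset _ _)) (law_chd_supp q1 hA)
  rw [Op.ap_ce_ae (pr_law hL').nn _ hA, ex_cond_law hL' (Op.mass_ne (pr_law hL').nn hA),
    chd_chd q3, empty_union, filter_HiOr q2, fg_union, fg_lb]
  simp only [union_assoc]

lemma top_insert (a : Λ) (U : Finset Λ) :
    (top (insert a U) : Finset (Fin T × Λ)) = top U ∪ {(0, a)} := by
  ext ⟨s, x⟩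
  simp only [top, mem_filter, mem_univ, true_and, mem_insert, mem_union, mem_singleton, Prod.mk.injEq]
  tauto

/-- killing time-`0` points one by one. -/
theorem chain {β : Type} [DecidableEq β] (hM : M.Ok y) (hr : ∀ u, 0 ≤ r u ∧ r u ≤ 1)
    (η : Finset (Lp T Λ × Bool) → β) {W : Finset Λ} {σ : ℝ} (hσ : 0 ≤ σ)
    (h : ∀ U ⊆ W, ∀ a ∈ W, Op.var (law2 ex ey r (kil M (top U)))
      (Op.ap (Op.ce (law2 ex ey r (kil M (top U))) η)
        (Op.ind fun B => B.filter (HitL {(0, a)}) = ∅)) ≤ σ ^ 2)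
    (φ : β → ℝ) (hφ : ∀ b, |φ b| ≤ 1) (U : Finset Λ) (hU : U ⊆ W) :
    |Op.ex (law2 ex ey r (kil M (top U))) (fun B => φ (η B)) -
      Op.ex (law2 ex ey r M) fun B => φ (η B)| ≤ U.card * (2 * σ) := by
  induction U using Finset.induction_on with
  | empty =>
    have : (top ∅ : Finset (Fin T × Λ)) = ∅ := by simp [top]
    simp [this, kil_empty]
  | insert a U ha ih =>
    have h1 := ih ((subset_insert _ _).trans hU)
    have hM' := ok_kil hM (top U)
    have h2 := Op.kill_step (pr_law2 hM' hr) _ η (c := 1 / 2) (by norm_num)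
      (by rw [ind_HitL, ex_law2]; exact avoid_half hM' _) hσ
      (h U ((subset_insert _ _).trans hU) a (hU (mem_insert_self _ _))) φ hφ
    rw [← law2_kil hM' hr, kil_kil, ← top_insert] at h2
    rw [card_insert_of_notMem ha]
    push_cast
    linarith [abs_sub_le (Op.ex (law2 ex ey r (kil M (top (insert a U)))) fun B => φ (η B))
      (Op.ex (law2 ex ey r (kil M (top U))) fun B => φ (η B))
      (Op.ex (law2 ex ey r M) fun B => φ (η B))]

/-- the last step: from the time-`0` points to the cylinder. -/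
theorem last {β : Type} [DecidableEq β] (h : Tow ex ey d M S Tf δ K v g N m f D) (hM : M.Ok 1)
    (hr : ∀ u, 0 ≤ r u ∧ r u ≤ 1)
    (hs : Slow ex ey d (Cheap ex ey d M) (fun u => M.b u ≠ 0) (v 0)) {W : Finset Λ}
    (hW : ∀ a ∈ W, ∀ x, d a x ≤ v 1 → M.b (0, x) = 0) (η : Finset (Lp T Λ × Bool) → β)
    (φ : β → ℝ) (hφ : ∀ b, |φ b| ≤ 1) :
    |Op.ex (law2 ex ey r (kil M (cyl W))) (fun B => φ (η B)) -
      Op.ex (law2 ex ey r M) fun B => φ (η B)| ≤ 2 * Real.sqrt δ := by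
  classical
  have hμ := pr_law2 (ex := ex) (ey := ey) hM hr
  have h1 : Op.ex (law2 ex ey r M) (Op.ind fun B => ¬B.filter (HitL (cyl W)) = ∅) ≤ δ := by
    refine le_trans ?_ (fast_law h hM zero_le_one (by omega : 0 < 4) hs)
    rw [ex_ind_not hμ, ind_HitL, ex_law2, ← ex_ind_not (pr_law hM)]
    refine Op.ex_mono_ae (pr_law hM).nn fun A hA => ?_
    by_cases a : SlowG ex ey d M (v (0 + 1)) A
    · have b : A.filter (Hit (cyl W)) = ∅ := filter_eq_empty_iff.2 fun l hl ⟨u, u1, u2⟩ => by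
        obtain ⟨x, x1, x2⟩ := reach hA a hl u1
        exact prod_ne_zero_iff.1 ((nu_supp hA).2 l hl) _ x1 (hW _ (mem_cyl.1 u2) x x2)
      rw [Op.ind, if_neg (not_not.2 b)]
      exact Op.ind_nn _ _
    · exact (Op.ind_le_one _ _).trans (by simp [Op.ind, a])
  have h2 := Op.kill_step hμ (fun B => B.filter (HitL (cyl W)) = ∅) η (c := 1 / 2) (by norm_num)
    (by rw [ex_ind_not hμ] at h1; linarith [h.δ1]) (Real.sqrt_nonneg δ)
    (by rw [Real.sq_sqrt h.δ0.le]; exact (var_ce_ind hμ _ _).trans h1) φ hφ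
  rw [← law2_kil hM hr] at h2
  linarith

/-- after killing the neighbourhood of a family its pins are invisible. -/
lemma law2_forget (hd : Met ex ey d) {x : Finset (Lp T Λ)} {W W' : Finset Λ}
    (hx : ∀ u ∈ pts x, u.2 ∈ W) (hW : nbd d 1 W ⊆ W') (hU : cyl W' ⊆ U) :
    law2 ex ey r (chd ex ey M U x) = law2 ex ey r (kil M U) := by
  have h0 : ∀ a ∈ W, a ∈ W' := fun a ha => hW (mem_nbd.2 ⟨a, ha, by rw [hd.1]; omega⟩)
  have e : U ∪ pts x = U := union_eq_left.2 fun u hu => hU (mem_cyl.2 (h0 _ (hx u hu)))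
  rw [law2, law2, chd, e, kil, w2_kill r _ M.p, w2_kill r M.p M.p]
  refine nu_congr_q fun A hA => ?_
  unfold qL
  split_ifs
  · refine qq_congr fun s hs => if_neg fun ht => ?_
    obtain ⟨l, hl, hs⟩ := tch_pts.1 hs
    obtain ⟨c, hc⟩ := mem_fg.1 hl
    have k : ∀ a, (s, a) ∈ l.2 → (a = ex s ∨ a = ey s) → False := fun a h1 h2 =>
      hA _ hc (if_pos ⟨_, h1, hU (mem_cyl.2 (hW (mem_nbd.2 (ht.elim
        (fun b => ⟨_, hx _ b, hd.ends h2 (Or.inl rfl)⟩)
        fun b => ⟨_, hx _ b, hd.ends h2 (Or.inr rfl)⟩))))⟩)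
    exact hs.elim (fun a => k _ a (Or.inl rfl)) fun a => k _ a (Or.inr rfl)
  · rfl

end Crest.Agent.N337.Ex
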