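import Crest.Agent.N337.Gas.Bridge
import Crest.Agent.N337.Pc.Defs

/-!
# Row 337, move (b): two-level laws of a model
-/

set_option autoImplicit false
set_option linter.unusedSectionVars false

namespace Crest.Agent.N337.Ex

open Finset Equiv Crest.Agent.N337.Rep Crest.Agent.N337.LY0 Crest.Agent.N337.A
  Crest.Agent.N337.Gas Crest.Agent.N337.Pc

variable {Λ : Type} [Fintype Λ] [DecidableEq Λ] {T : ℕ} [NeZero T] (ex ey : Fin T → Λ)

instance instDecFL : DecidableEq (Finset (Lp T Λ × Bool)) := Finset.decidableEq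

/-- the model with lowered weights (the medium). -/
def low (r : Fin T × Λ → ℝ) (M : Mdl T Λ) : Mdl T Λ := ⟨M.p, fun v => r v * M.b v⟩

/-- weight of the top colour. -/
def DD (r : Fin T × Λ → ℝ) (M : Mdl T Λ) (g : Lp T Λ) : ℝ := ub M.b g - ub (low r M).b g

/-- weights of the two colours. -/
def w2 (r : Fin T × Λ → ℝ) (M : Mdl T Λ) : Lp T Λ × Bool → ℝ := Pc.two (ub (low r M).b) (DD r M)

/-- the two-colour law. -/
noncomputable def law2 (r : Fin T × Λ → ℝ) (M : Mdl T Λ) : Finset (Lp T Λ × Bool) → ℝ :=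
  nu (qL (qq ex ey M.p)) (w2 r M)

/-- more killing. -/
def kil (M : Mdl T Λ) (U : Finset (Fin T × Λ)) : Mdl T Λ := ⟨M.p, kill M.b U⟩

/-- all labels `false`. -/
def lb {Γ : Type} (A : Finset Γ) : Finset (Γ × Bool) :=
  A.map ⟨fun g => (g, false), fun _ _ h => congrArg Prod.fst h⟩

/-- the labelled loop meets `U`. -/
def HitL (U : Finset (Fin T × Λ)) (y : Lp T Λ × Bool) : Prop := Hit U y.1

instance (U : Finset (Fin T × Λ)) : DecidablePred (HitL U) := fun _ => by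
  unfold HitL; infer_instance

/-- top colour, or the loop meets `U`. -/
def HiOr (U : Finset (Fin T × Λ)) (y : Lp T Λ × Bool) : Prop := y.2 = true ∨ Hit U y.1

instance (U : Finset (Fin T × Λ)) : DecidablePred (HiOr U) := fun _ => by
  unfold HiOr; infer_instance

variable {ex ey} {M : Mdl T Λ} {y : ℝ} {r : Fin T × Λ → ℝ} {U U' : Finset (Fin T × Λ)}

section lb
variable {Γ : Type} [Fintype Γ] [DecidableEq Γ]

lemma mem_lb {A : Finset Γ} {z : Γ × Bool} : z ∈ lb A ↔ z.1 ∈ A ∧ z.2 = false := by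
  obtain ⟨g, a⟩ := z
  simp [lb, eq_comm]

@[simp] lemma fg_lb (A : Finset Γ) : fg (lb A) = A := by
  ext g; simp [mem_fg, mem_lb]

lemma lb_fg {B : Finset (Γ × Bool)} (h : ∀ z ∈ B, z.2 = false) : lb (fg B) = B := by
  ext ⟨g, a⟩
  simp only [mem_lb, mem_fg]
  exact ⟨fun ⟨⟨c, hc⟩, e⟩ => by rwa [e, ← show c = false from h _ hc], fun hz => ⟨⟨a, hz⟩, h _ hz⟩⟩

/-- a two-colour gas without top colour. -/
lemma ex_lb {q : Finset Γ → ℝ} {u : Γ × Bool → ℝ} (h : ∀ g, u (g, true) = 0)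
    (G : Finset (Γ × Bool) → ℝ) :
    Op.ex (nu (qL q) u) G = Op.ex (nu q fun g => u (g, false)) fun A => G (lb A) := by
  have e : tot u = fun g => u (g, false) := funext fun g => by simp [tot, h]
  rw [← e, ← ex_forget]
  refine Op.ex_congr fun B hB => ?_
  rw [lb_fg fun z hz => ?_]
  obtain ⟨g, a⟩ := z
  cases a
  exacts [rfl, absurd (h g) ((nu_supp hB).2 _ hz)]

end lb

lemma hi_eq : (hi : Finset (Lp T Λ × Bool) → _) = filter (HiOr ∅) := by
  funext X; exact filter_congr fun z _ => by simp [HiOr, Hit]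

lemma low_kil (r : Fin T × Λ → ℝ) (M : Mdl T Λ) (U : Finset (Fin T × Λ)) :
    low r (kil M U) = kil (low r M) U := by
  simp only [low, kil, Mdl.mk.injEq, true_and]
  funext v; unfold kill; split_ifs <;> simp

lemma low_chd (r : Fin T × Λ → ℝ) (M : Mdl T Λ) (U : Finset (Fin T × Λ)) (x : Finset (Lp T Λ)) :
    low r (chd ex ey M U x) = chd ex ey (low r M) U x := by
  simp only [low, chd, Mdl.mk.injEq, true_and]
  funext v; unfold kill; split_ifs <;> simp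

lemma kil_kil (M : Mdl T Λ) (U U' : Finset (Fin T × Λ)) : kil (kil M U) U' = kil M (U ∪ U') := by
  simp only [kil, Mdl.mk.injEq, true_and]
  funext v; by_cases a : v ∈ U <;> by_cases b : v ∈ U' <;> simp [kill, a, b]

lemma kil_empty (M : Mdl T Λ) : kil M ∅ = M := by
  simp only [kil]; congr 1

lemma kil_chd (M : Mdl T Λ) (U U' : Finset (Fin T × Λ)) (x : Finset (Lp T Λ)) :
    kil (chd ex ey M U x) U' = chd ex ey M (U ∪ U') x := by
  simp only [kil, chd, Mdl.mk.injEq, true_and]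
  funext v
  by_cases a : v ∈ U <;> by_cases b : v ∈ U' <;> by_cases c : v ∈ pts x <;> simp [kill, a, b, c]

lemma ok_kil (h : M.Ok y) (U : Finset (Fin T × Λ)) : (kil M U).Ok y :=
  ⟨h.1, kill_mem h.2.1 _, fun z => (kill_le (fun v => (h.2.1 v).1) _ _).trans (h.2.2 z)⟩

lemma ok_low (h : M.Ok y) (hr : ∀ v, 0 ≤ r v ∧ r v ≤ 1) : (low r M).Ok y :=
  have k : ∀ v, r v * M.b v ≤ M.b v := fun v => mul_le_of_le_one_left (h.2.1 v).1 (hr v).2
  ⟨h.1, fun v => ⟨mul_nonneg (hr v).1 (h.2.1 v).1, (k v).trans (h.2.1 v).2⟩,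
    fun z => (k _).trans (h.2.2 z)⟩

lemma kill_ne {b : Fin T × Λ → ℝ} {v : Fin T × Λ} (h : kill b U v ≠ 0) : v ∉ U ∧ b v ≠ 0 := by
  unfold kill at h; split_ifs at h with a
  exacts [absurd rfl h, ⟨a, h⟩]

lemma DD_nn (h : M.Ok y) (hr : ∀ v, 0 ≤ r v ∧ r v ≤ 1) (g : Lp T Λ) : 0 ≤ DD r M g :=
  sub_nonneg.2 (prod_le_prod (fun v _ => ((ok_low h hr).2.1 v).1)
    fun v _ => mul_le_of_le_one_left (h.2.1 v).1 (hr v).2)

lemma w2_nn (h : M.Ok y) (hr : ∀ v, 0 ≤ r v ∧ r v ≤ 1) (z : Lp T Λ × Bool) : 0 ≤ w2 r M z := by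
  unfold w2 Pc.two; split_ifs
  exacts [DD_nn h hr _, ub_M (ok_low h hr) _]

lemma tot_w2 (r : Fin T × Λ → ℝ) (M : Mdl T Λ) : tot (w2 r M) = ub M.b := by
  funext g; simp [tot, w2, Pc.two, DD]

lemma w2_supp {z : Lp T Λ × Bool} (h : w2 r M z ≠ 0) : ∀ v ∈ z.1.2, M.b v ≠ 0 := fun v hv e => by
  have a : ub M.b z.1 = 0 := prod_eq_zero hv e
  have b : ub (low r M).b z.1 = 0 := prod_eq_zero hv (by simp [low, e])
  exact h (by simp [w2, Pc.two, DD, a, b])

lemma w2_kill (r : Fin T × Λ → ℝ) (p p' : Fin T → ℝ) (b : Fin T × Λ → ℝ)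
    (U : Finset (Fin T × Λ)) : w2 r ⟨p, kill b U⟩ = off (HitL U) (w2 r ⟨p', b⟩) := by
  have e : (low r ⟨p, kill b U⟩).b = kill (low r ⟨p', b⟩).b U := by
    funext v; simp only [low, kill]; split_ifs <;> simp
  funext z
  simp only [w2, Pc.two, DD, e, ub_kill, off, HitL]
  split_ifs <;> simp

lemma pr_law2 (h : M.Ok y) (hr : ∀ v, 0 ≤ r v ∧ r v ≤ 1) : Op.Pr (law2 ex ey r M) :=
  pr_nu (cpt_M h).qL (w2_nn h hr)

lemma ex_law2 (r : Fin T × Λ → ℝ) (M : Mdl T Λ) (F : Finset (Lp T Λ) → ℝ) :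
    Op.ex (law2 ex ey r M) (fun B => F (fg B)) = Op.ex (law ex ey M) F := by
  rw [law2, ex_forget, tot_w2, law]

lemma var_law2 (r : Fin T × Λ → ℝ) (M : Mdl T Λ) (F : Finset (Lp T Λ) → ℝ) :
    Op.var (law2 ex ey r M) (fun B => F (fg B)) = Op.var (law ex ey M) F := by
  rw [law2, var_forget, tot_w2, law]

lemma Dir_law2 (r : Fin T × Λ → ℝ) (M : Mdl T Λ) (F : Finset (Lp T Λ) → ℝ) :
    Dir (law2 ex ey r M) (fun B => F (fg B)) = Dir (law ex ey M) F := by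
  rw [law2, Dir_forget, tot_w2, law]

/-- killing is conditioning. -/
lemma law2_kil (h : M.Ok y) (hr : ∀ v, 0 ≤ r v ∧ r v ≤ 1) (U : Finset (Fin T × Λ)) :
    law2 ex ey r (kil M U) = fun B => Op.ind (fun B => B.filter (HitL U) = ∅) B *
      law2 ex ey r M B / Op.ex (law2 ex ey r M) (Op.ind fun B => B.filter (HitL U) = ∅) := by
  rw [law2, kil, w2_kill r M.p M.p]
  exact nu_off (cpt_M h).qL (w2_nn h hr) _

lemma mass2_supp {Q : Lp T Λ × Bool → Prop} [DecidablePred Q] {x : Finset (Lp T Λ × Bool)}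
    (h : M.Ok y) (hx : Op.mass (law2 ex ey r M) (filter Q) x ≠ 0) :
    qq ex ey M.p (fg x) ≠ 0 ∧ ∀ z ∈ x, Q z :=
  have := mass_supp (cpt_M h).qL hx
  ⟨(qL_supp this.1).2, this.2.1⟩

lemma hit_iff {p : Fin T → ℝ} {x : Finset (Lp T Λ)} {g : Lp T Λ} (hx : qq ex ey p x ≠ 0)
    (hg : qq ex ey (pin ex ey p x) {g} ≠ 0) : Hit (U ∪ pts x) g ↔ Hit U g ∨ g ∈ x := by
  refine ⟨fun ⟨v, a, b⟩ => ?_, fun h => h.elim (fun ⟨v, a, b⟩ => ⟨v, a, mem_union_left _ b⟩) ?_⟩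
  · rcases mem_or_disjoint hx hg with h1 | h1
    · exact Or.inr h1
    · exact Or.inl ⟨v, a, (mem_union.1 b).resolve_right (disjoint_left.1 h1 a)⟩
  · intro h
    obtain ⟨v, hv⟩ := qq_nonempty hx h
    exact ⟨v, hv, mem_union_right _ (mem_pts.2 ⟨g, h, hv⟩)⟩

lemma qL_single {Γ : Type} [Fintype Γ] [DecidableEq Γ] {q : Finset Γ → ℝ} {z : Γ × Bool}
    (h : qL q {z} ≠ 0) : q {z.1} ≠ 0 := by simpa [fg] using (qL_supp h).2

/-- **the two-colour law given the loops that meet `U`.** -/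
theorem ex_cond2 (h : M.Ok y) (hr : ∀ v, 0 ≤ r v ∧ r v ≤ 1) {x : Finset (Lp T Λ × Bool)}
    (hx : Op.mass (law2 ex ey r M) (filter (HitL U)) x ≠ 0) (G : Finset (Lp T Λ × Bool) → ℝ) :
    Op.ex (Op.cond (law2 ex ey r M) (filter (HitL U)) x) G =
      Op.ex (law2 ex ey r (chd ex ey M U (fg x))) fun B => G (x ∪ B) := by
  have h1 := (mass2_supp h hx).1
  rw [law2, ex_cond_lab (cpt_M h) (w2_nn h hr) hx, sh_qq h1, law2, chd, w2_kill r _ M.p]
  congr 1
  refine nu_congr (cpt_qq (pin_mem h.1 _)).qL fun z hz => ?_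
  exact if_congr (hit_iff h1 (qL_single hz)).symm rfl rfl

lemma var_cond2 (h : M.Ok y) (hr : ∀ v, 0 ≤ r v ∧ r v ≤ 1) {x : Finset (Lp T Λ × Bool)}
    (hx : Op.mass (law2 ex ey r M) (filter (HitL U)) x ≠ 0) (G : Finset (Lp T Λ × Bool) → ℝ) :
    Op.var (Op.cond (law2 ex ey r M) (filter (HitL U)) x) G =
      Op.var (law2 ex ey r (chd ex ey M U (fg x))) fun B => G (x ∪ B) := by
  simp only [Op.var, Op.nsq_eq_ex, ex_cond2 h hr hx]

/-- **the two-colour law given the top colour and the loops that meet `U`.** -/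
theorem ex_condH (h : M.Ok y) (hr : ∀ v, 0 ≤ r v ∧ r v ≤ 1) {x : Finset (Lp T Λ × Bool)}
    (hx : Op.mass (law2 ex ey r M) (filter (HiOr U)) x ≠ 0) (G : Finset (Lp T Λ × Bool) → ℝ) :
    Op.ex (Op.cond (law2 ex ey r M) (filter (HiOr U)) x) G =
      Op.ex (law ex ey (chd ex ey (low r M) U (fg x))) fun A => G (x ∪ lb A) := by
  have h1 := (mass2_supp h hx).1
  rw [law2, ex_cond_lab (cpt_M h) (w2_nn h hr) hx, sh_qq h1,
    ex_lb fun g => if_pos (Or.inl (Or.inl rfl)), law]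
  congr 1
  refine nu_congr (cpt_qq (pin_mem h.1 _)) fun g hg => ?_
  simp only [chd, ub_kill, off, HiOr, Bool.false_eq_true, false_or, hit_iff h1 hg]
  rfl

lemma var_condH (h : M.Ok y) (hr : ∀ v, 0 ≤ r v ∧ r v ≤ 1) {x : Finset (Lp T Λ × Bool)}
    (hx : Op.mass (law2 ex ey r M) (filter (HiOr U)) x ≠ 0) (G : Finset (Lp T Λ × Bool) → ℝ) :
    Op.var (Op.cond (law2 ex ey r M) (filter (HiOr U)) x) G =
      Op.var (law ex ey (chd ex ey (low r M) U (fg x))) fun A => G (x ∪ lb A) := by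
  simp only [Op.var, Op.nsq_eq_ex, ex_condH h hr hx]

lemma law2_supp {B : Finset (Lp T Λ × Bool)} (h : law2 ex ey r M B ≠ 0) :
    Inj B ∧ qq ex ey M.p (fg B) ≠ 0 ∧ ∀ z ∈ B, ∀ v ∈ z.1.2, M.b v ≠ 0 :=
  have := nu_supp h
  ⟨(qL_supp this.1).1, (qL_supp this.1).2, fun z hz => w2_supp (this.2 z hz)⟩

/-- pinning twice. -/
lemma chd_chd {x z : Finset (Lp T Λ)} (h : qq ex ey M.p (x ∪ z) ≠ 0) :
    chd ex ey (chd ex ey M U x) U' z = chd ex ey M (U ∪ U') (x ∪ z) := by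
  obtain ⟨ξ, -, hξ⟩ := qq_supp h
  simp only [chd, Mdl.mk.injEq]
  constructor
  · funext s
    simp only [pin, cn_eq hξ, cn_eq (subset_union_left.trans hξ),
      cn_eq (subset_union_right.trans hξ), pts_union, tch, mem_union]
    by_cases a : (s, ex s) ∈ pts x <;> by_cases b : (s, ey s) ∈ pts x <;>
      by_cases c : (s, ex s) ∈ pts z <;> by_cases e : (s, ey s) ∈ pts z <;> simp [a, b, c, e]
  · funext v
    simp only [kill, pts_union, mem_union]
    by_cases a : v ∈ U <;> by_cases b : v ∈ U' <;> by_cases c : v ∈ pts x <;>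
      by_cases e : v ∈ pts z <;> simp [a, b, c, e]

/-- the weights see only the coins that touch the family. -/
lemma qq_congr {p p' : Fin T → ℝ} {A : Finset (Lp T Λ)}
    (h : ∀ s, tch ex ey (pts A) s → p s = p' s) : qq ex ey p A = qq ex ey p' A := by
  by_cases hA : ∃ ξ, A ⊆ L ex ey ξ
  · obtain ⟨ξ, hA⟩ := hA
    rw [qq_eq hA, qq_eq hA]
    exact prod_congr rfl fun s _ => by split_ifs with hs; exacts [by rw [h s hs], rfl]
  · push Not at hA
    simp [qq, hA]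

/-- a point is down with probability at most one half. -/
lemma avoid_half (h : M.Ok y) (v : Fin T × Λ) :
    1 / 2 ≤ Op.ex (law ex ey M) (Op.ind fun A => A.filter (Hit {v}) = ∅) := by
  have e : ∀ A, gw (qq ex ey M.p) (ub M.b) A * Op.ind (fun A => A.filter (Hit {v}) = ∅) A =
      gw (qq ex ey M.p) (off (Hit {v}) (ub M.b)) A := fun A => by
    rw [gw_off, Op.ind]; split_ifs <;> simp
  rw [law, ex_nu, le_div_iff₀ (gZ_pos (cpt_M h) (ub_M h))]
  simp only [e]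
  rw [← gZ, gZ_qq, gZ_qq, mul_sum]
  refine sum_le_sum fun ξ _ => ?_
  rw [mul_left_comm]
  refine mul_le_mul_of_nonneg_left ?_ (Pw_nonneg h.1 ξ)
  have e2 : ∏ g ∈ (L ex ey ξ).erase (lp ex ey ξ v), (1 + off (Hit {v}) (ub M.b) g) =
      ∏ g ∈ (L ex ey ξ).erase (lp ex ey ξ v), (1 + ub M.b g) := prod_congr rfl fun g hg => by
    rw [off, if_neg fun ⟨u, a, b⟩ => (mem_erase.1 hg).1
      (eq_lp (mem_erase.1 hg).2 (mem_singleton.1 b ▸ a))]
  rw [← mul_prod_erase _ _ (lp_mem_L ξ v), ← mul_prod_erase _ _ (lp_mem_L ξ v), ← mul_assoc, off,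
    if_pos ⟨v, self_mem_obv ξ v, mem_singleton_self v⟩, e2]
  exact mul_le_mul_of_nonneg_right (by linarith [ub_le_one h.2.1 (lp ex ey ξ v)])
    (prod_nonneg fun g _ => by linarith [ub_M h g])

end Crest.Agent.N337.Ex
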